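import Vale.Agent.H30.NS.Build
import Vale.Agent.H30.Fz.H1Eta
import Vale.Agent.H30.Fz.H8GFact
import Vale.Agent.H30.Fz.H10BumpSum
import Vale.Agent.H30.Fz.H97GDer
import Vale.Agent.H30.Fz.H45WDer

/-!
Second construction for P113: the input is written by a machine-independent force and the
machine acts through a time-periodic force that does not know the input.
This file: the per-machine halting weights, the per-machine lookup function and the periodic
lookup pulse.
-/

namespace Vale.Agent.H30.V2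

open Vale.Agent.H30 Encodable

/-- Code of the pair formed by the machine `M` and the `j`-th input word. -/
def pc (M : MachineT) (j : ℕ) : ℕ := encode (M, Denumerable.ofNat (List ℕ) j)

theorem pc_encode (M : MachineT) (w : List ℕ) : pc M (encode w) = encode (M, w) := by
  unfold pc
  rw [Denumerable.ofNat_encode]

theorem pc_computable : Computable (fun p : MachineT × ℕ => pc p.1 p.2) := by
  have h1 : Computable (fun p : MachineT × ℕ => (p.1, Denumerable.ofNat (List ℕ) p.2)) :=
    Computable.pair Computable.fst ((Primrec.ofNat (List ℕ)).to_comp.comp Computable.snd)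
  exact Computable.encode.comp h1

/-- Halting weight of the machine `M` on the `j`-th input word: positive exactly when `M`
reaches a halting state on that word, and at most `2 ^ (-j)`. -/
noncomputable def etaM (M : MachineT) (j : ℕ) : ℝ :=
  (1 / 2 : ℝ) ^ j * ((2 : ℝ) ^ pc M j * etaW (pc M j))

theorem etaM_nonneg (M : MachineT) (j : ℕ) : 0 ≤ etaM M j :=
  mul_nonneg (by positivity) (mul_nonneg (by positivity) (Vale.Agent.H1.etaW_nonneg _))

theorem etaM_le (M : MachineT) (j : ℕ) : etaM M j ≤ (1 / 2 : ℝ) ^ j := by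
  have h1 : (2 : ℝ) ^ pc M j * etaW (pc M j) ≤ 1 := by
    have h := Vale.Agent.H1.etaW_le (pc M j)
    have h2 : (2 : ℝ) ^ pc M j * (1 / 2 : ℝ) ^ pc M j = 1 := by
      rw [← mul_pow]; norm_num
    calc (2 : ℝ) ^ pc M j * etaW (pc M j) ≤ (2 : ℝ) ^ pc M j * (1 / 2 : ℝ) ^ pc M j :=
          mul_le_mul_of_nonneg_left h (by positivity)
      _ = 1 := h2
  calc etaM M j ≤ (1 / 2 : ℝ) ^ j * 1 :=
        mul_le_mul_of_nonneg_left h1 (by positivity)
    _ = (1 / 2 : ℝ) ^ j := mul_one _

theorem etaM_abs_le (M : MachineT) (j : ℕ) : |etaM M j| ≤ (1 / 2 : ℝ) ^ j := by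
  rw [abs_of_nonneg (etaM_nonneg M j)]
  exact etaM_le M j

theorem etaM_le_one (M : MachineT) (j : ℕ) : etaM M j ≤ 1 :=
  (etaM_le M j).trans (pow_le_one₀ (by norm_num) (by norm_num))

theorem etaM_pos_iff (M : MachineT) (w : List ℕ) :
    0 < etaM M (encode w) ↔ ∃ n : ℕ, ((tmStep M)^[n] (M.1, [], w)).1 ∈ M.2.1 := by
  unfold etaM
  rw [pc_encode]
  have h1 : (0 : ℝ) < (1 / 2 : ℝ) ^ encode w := by positivity
  have h2 : (0 : ℝ) < (2 : ℝ) ^ encode (M, w) := by positivity
  rw [mul_pos_iff_of_pos_left h1, mul_pos_iff_of_pos_left h2, Vale.Agent.H1.etaW_pos_iff]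
  simp only [reach_encode, decide_eq_true_eq]

theorem etaM_creal : CReal (fun p : MachineT × ℕ => etaM p.1 p.2) := by
  have h1 : CReal (fun p : MachineT × ℕ => (((1 / 2 : ℚ) ^ p.2 : ℚ) : ℝ)) :=
    Vale.Agent.H91.CReal.of_rat
      (Vale.Agent.H7.CRat.pow (Vale.Agent.H7.CRat.const (1 / 2)) Computable.snd)
  have h2 : CReal (fun p : MachineT × ℕ => (((2 : ℚ) ^ pc p.1 p.2 : ℚ) : ℝ)) :=
    Vale.Agent.H91.CReal.of_rat
      (Vale.Agent.H7.CRat.pow (Vale.Agent.H7.CRat.const 2) pc_computable)
  have h3 : CReal (fun p : MachineT × ℕ => etaW (pc p.1 p.2)) :=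
    Vale.Agent.H91.CReal.comp Vale.Agent.H1.etaW_creal pc_computable
  have h := Vale.Agent.H91.CReal.mul h1 (Vale.Agent.H91.CReal.mul h2 h3)
  refine (congrArg CReal (funext fun p => ?_)).mp h
  unfold etaM
  push_cast
  rfl

end Vale.Agent.H30.V2
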