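import Vale.Agent.H30.NS2.Base

/-!
Facts on periodised bump series `bumpPer (Wfun 0 1) η` for arbitrary weights `η` with
`|η N| ≤ 2 ^ (-N)`: periodicity, smoothness, the value at the centres, and the computability of
all derivatives at rational points, uniformly in a parameter.
-/

namespace Vale.Agent.H30.V2

open Vale.Agent.H30 Vale.Agent.H7 Vale.Agent.H91 Vale.Agent.H97 Vale.Agent.H8

theorem W_smooth : ∀ n : ℕ, ContDiff ℝ n (Wfun 0 1) := fun n => Wfun_contDiff 0 1 n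

theorem W_zero_left : ∀ s : ℝ, s ≤ 0 → Wfun 0 1 s = 0 := fun _ hs =>
  Wfun_eq_zero (Or.inl (by simpa using hs))

theorem W_zero_right : ∀ s : ℝ, 1 ≤ s → Wfun 0 1 s = 0 := fun _ hs => Wfun_eq_zero (Or.inr hs)

theorem bp_periodic (B : ℝ → ℝ) (η : ℕ → ℝ) (x : ℝ) (k : ℤ) :
    bumpPer B η (x + k) = bumpPer B η x := by
  unfold bumpPer
  rw [Int.fract_add_intCast]

theorem bp_smooth (η : ℕ → ℝ) (hη : ∀ N, |η N| ≤ (1 / 2 : ℝ) ^ N) (n : ℕ) :
    ContDiff ℝ n (bumpPer (Wfun 0 1) η) :=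
  Vale.Agent.H10.bumpPer_contDiff (Wfun 0 1) η W_smooth W_zero_left W_zero_right hη n

/-- The value of a periodised bump series at the centre of the `N`-th bump. -/
theorem bp_cq (η : ℕ → ℝ) (N : ℕ) :
    bumpPer (Wfun 0 1) η ((cq N : ℚ) : ℝ) = η N * (Real.exp (-1) * Real.exp (-1)) := by
  have hN : (0 : ℝ) ≤ N := Nat.cast_nonneg N
  unfold bumpPer bumpSum
  rw [cq_fract, tsum_eq_single N]
  · rw [cq_arg, Wfun_half]
  · intro M hM
    have hM0 : (0 : ℝ) ≤ M := Nat.cast_nonneg M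
    have hpos : (0 : ℝ) < ((M : ℝ) + 2) * ((M : ℝ) + 3) := by positivity
    rcases lt_or_gt_of_ne hM with h | h
    · have hMN : (M : ℝ) + 1 ≤ N := by exact_mod_cast h
      have h1 : 1 / ((N : ℝ) + 2) ≤ 1 / ((M : ℝ) + 3) :=
        one_div_le_one_div_of_le (by positivity) (by linarith)
      have h2 : ((cq N : ℚ) : ℝ) - 1 / ((M : ℝ) + 3) ≤ 0 := by
        have := cq_lt N
        linarith
      have h3 : (((cq N : ℚ) : ℝ) - 1 / ((M : ℝ) + 3)) * (((M : ℝ) + 2) * ((M : ℝ) + 3)) ≤ -0 := by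
        rw [neg_zero]
        exact mul_nonpos_of_nonpos_of_nonneg h2 hpos.le
      rw [Wfun_eq_zero (Or.inl h3), mul_zero]
    · have hMN : (N : ℝ) + 1 ≤ M := by exact_mod_cast h
      have h1 : 1 / ((M : ℝ) + 2) ≤ 1 / ((N : ℝ) + 3) :=
        one_div_le_one_div_of_le (by positivity) (by linarith)
      have h2 : 1 / ((M : ℝ) + 2) - 1 / ((M : ℝ) + 3) ≤ ((cq N : ℚ) : ℝ) - 1 / ((M : ℝ) + 3) := by
        have := cq_gt N
        linarith
      have h4 : (1 / ((M : ℝ) + 2) - 1 / ((M : ℝ) + 3)) * (((M : ℝ) + 2) * ((M : ℝ) + 3)) = 1 := by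
        field_simp
        ring
      have h3 : 1 ≤ (((cq N : ℚ) : ℝ) - 1 / ((M : ℝ) + 3)) * (((M : ℝ) + 2) * ((M : ℝ) + 3)) :=
        le_of_eq_of_le h4.symm (mul_le_mul_of_nonneg_right h2 hpos.le)
      rw [Wfun_eq_zero (Or.inr h3), mul_zero]

/-- Closed formula for the derivatives of a periodised bump series at a rational point. -/
theorem bp_iteratedDeriv_rat (η : ℕ → ℝ) (hη : ∀ N, |η N| ≤ (1 / 2 : ℝ) ^ N) (j : ℕ)
    (q : ℕ × ℕ × ℕ) :
    iteratedDeriv j (bumpPer (Wfun 0 1) η) (qv q) =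
      if (decide (0 < gFr q) && decide (gFr q ≤ 1 / 2)) = true then
        η (gIdx q) * ((gScale q ^ j : ℚ) : ℝ)
          * iteratedDeriv j (Wfun 0 1) ((gArg q : ℚ) : ℝ)
      else 0 := by
  have key := Vale.Agent.H10.bumpPer_iteratedDeriv (Wfun 0 1) η W_smooth W_zero_left
    W_zero_right hη j (qv q)
  rw [key, natFloor_inv_fract_qv, fract_qv]
  have hc : ((0 : ℝ) < ((gFr q : ℚ) : ℝ) ∧ ((gFr q : ℚ) : ℝ) ≤ 1 / 2) ↔
      (decide (0 < gFr q) && decide (gFr q ≤ 1 / 2)) = true := by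
    rw [Bool.and_eq_true, decide_eq_true_eq, decide_eq_true_eq]
    constructor
    · rintro ⟨h1, h2⟩
      refine ⟨by exact_mod_cast h1, ?_⟩
      have : ((gFr q : ℚ) : ℝ) ≤ ((1 / 2 : ℚ) : ℝ) := by push_cast; exact h2
      exact_mod_cast this
    · rintro ⟨h1, h2⟩
      refine ⟨by exact_mod_cast h1, ?_⟩
      have : ((gFr q : ℚ) : ℝ) ≤ ((1 / 2 : ℚ) : ℝ) := by exact_mod_cast h2
      simpa using this
  by_cases h : (decide (0 < gFr q) && decide (gFr q ≤ 1 / 2)) = true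
  · rw [if_pos h, if_pos (hc.2 h)]
    simp only [gArg, gScale]
    push_cast
    rfl
  · rw [if_neg h, if_neg (fun h' => h (hc.1 h'))]

/-- All derivatives of a computable family of periodised bump series at rational points are
computable reals, uniformly in the parameter, the order and the point. -/
theorem bp_deriv_creal {α : Type} [Primcodable α] (η : α → ℕ → ℝ)
    (hη : ∀ a N, |η a N| ≤ (1 / 2 : ℝ) ^ N)
    (hE : CReal (fun p : α × ℕ => η p.1 p.2)) :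
    CReal (fun p : α × ℕ × (ℕ × ℕ × ℕ) =>
      iteratedDeriv p.2.1 (bumpPer (Wfun 0 1) (η p.1)) (qv p.2.2)) := by
  have hW' : CReal (fun p : ℕ × (ℕ × ℕ × ℕ) => iteratedDeriv p.1 (Wfun 0 1) (qv p.2)) := by
    simpa using Vale.Agent.H45.Wfun_deriv_creal 0 1 (by norm_num)
  obtain ⟨R, hR, hRr⟩ := gArg_crat
  have pj : Computable (fun p : α × ℕ × (ℕ × ℕ × ℕ) => p.2.1) :=
    Computable.fst.comp Computable.snd
  have pq : Computable (fun p : α × ℕ × (ℕ × ℕ × ℕ) => p.2.2) :=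
    Computable.snd.comp Computable.snd
  have h1 : CReal (fun p : α × ℕ × (ℕ × ℕ × ℕ) => η p.1 (gIdx p.2.2)) :=
    CReal.comp hE (g := fun p : α × ℕ × (ℕ × ℕ × ℕ) => (p.1, gIdx p.2.2))
      (Computable.pair Computable.fst (gIdx_comp.comp pq))
  have h2 : CReal (fun p : α × ℕ × (ℕ × ℕ × ℕ) => ((gScale p.2.2 ^ p.2.1 : ℚ) : ℝ)) :=
    CReal.of_rat (CRat.pow (CRat.comp gScale_crat pq) pj)
  have h3 : CReal (fun p : α × ℕ × (ℕ × ℕ × ℕ) =>
      iteratedDeriv p.2.1 (Wfun 0 1) (qv (R p.2.2))) :=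
    CReal.comp hW' (g := fun p : α × ℕ × (ℕ × ℕ × ℕ) => (p.2.1, R p.2.2))
      (Computable.pair pj (hR.comp pq))
  have hc : Computable (fun p : α × ℕ × (ℕ × ℕ × ℕ) =>
      (decide (0 < gFr p.2.2) && decide (gFr p.2.2 ≤ 1 / 2))) :=
    Primrec.and.to_comp.comp
      (CRat.decide_lt (CRat.const 0) (CRat.comp gFr_crat pq))
      (CRat.decide_le (CRat.comp gFr_crat pq) (CRat.const (1 / 2)))
  have h0 : CReal (fun _ : α × ℕ × (ℕ × ℕ × ℕ) => (0 : ℝ)) := by
    simpa using CReal.of_rat (α := α × ℕ × (ℕ × ℕ × ℕ)) (CRat.const 0)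
  have hall := CReal.ite hc (CReal.mul (CReal.mul h1 h2) h3) h0
  refine (congrArg CReal (funext fun p => ?_)).mp hall
  rw [bp_iteratedDeriv_rat (η p.1) (hη p.1) p.2.1 p.2.2, qv_eq_ratOf, hRr]

end Vale.Agent.H30.V2
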