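import Vale.Agent.H30.NS2.Sol
import Vale.Agent.H30.Fz.H43Force

/-!
The forces of the second construction: the lookup function of a machine, the force for a
machine and an input word, and the computability of all its mixed derivatives at rational
points.
-/

namespace Vale.Agent.H30.V2

open Vale.Agent.H43 Vale.Agent.H91 Encodable

/-- The lookup function of the machine `M`: a smooth `1`-periodic function whose `j`-th bump has
height proportional to the halting weight of `M` on the `j`-th input word. -/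
noncomputable def gM (M : MachineT) : ℝ → ℝ := bumpPer (Wfun 0 1) (etaM M)

theorem gM_smooth (M : MachineT) (n : ℕ) : ContDiff ℝ n (gM M) :=
  bp_smooth (etaM M) (etaM_abs_le M) n

theorem gM_periodic (M : MachineT) (x : ℝ) (k : ℤ) : gM M (x + k) = gM M x :=
  bp_periodic _ _ x k

theorem gM_cq (M : MachineT) (j : ℕ) :
    gM M ((cq j : ℚ) : ℝ) = etaM M j * (Real.exp (-1) * Real.exp (-1)) :=
  bp_cq _ j

theorem gM_deriv_creal :
    CReal (fun p : MachineT × ℕ × (ℕ × ℕ × ℕ) => iteratedDeriv p.2.1 (gM p.1) (qv p.2.2)) :=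
  bp_deriv_creal etaM etaM_abs_le etaM_creal

/-- The force for the machine `M` and the input word `w`. -/
noncomputable def fMw (ν : ℝ) (M : MachineT) (w : List ℕ) : ℝ → R3 → R3 :=
  fG ν ((cq (encode w) : ℚ) : ℝ) (gM M)

lemma mixedD_fG_zero (ν c : ℝ) (g : ℝ → ℝ) (a : ℕ) (b : ℕ × ℕ × ℕ) (t : ℝ) (x : R3) :
    mixedD a b (fun s y => fG ν c g s y (0 : Fin 3)) t x =
      if b.2.1 = 0 ∧ b.2.2 = 0 then
        (if b.1 = 0 then -c * iteratedDeriv (a + 2) hfun t else 0)
      else 0 := by
  have hfun_eq : (fun (s : ℝ) (y : R3) => fG ν c g s y ((0 : Fin 3))) =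
      fun s y => (fun s => -c * iteratedDeriv 2 hfun s) s
          * (fun _ : ℝ => (1 : ℝ)) (y 0)
        + (fun _ : ℝ => (0 : ℝ)) s * (fun _ : ℝ => (0 : ℝ)) (y 0) := by
    funext s y
    simp [fG]
  have e : mixedD a b (fun s y => fG ν c g s y ((0 : Fin 3))) t x =
      if b.2.1 = 0 ∧ b.2.2 = 0 then
        iteratedDeriv a (fun s => -c * iteratedDeriv 2 hfun s) t
            * iteratedDeriv b.1 (fun _ : ℝ => (1 : ℝ)) (x 0)
          + iteratedDeriv a (fun _ : ℝ => (0 : ℝ)) t
            * iteratedDeriv b.1 (fun _ : ℝ => (0 : ℝ)) (x 0)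
      else 0 := by
    rw [hfun_eq]
    exact mixedD_prod_add _ _ _ _
      (fun n => contDiff_const.mul (smooth_iteratedDeriv hfun_smooth 2 n))
      (fun _ => contDiff_const) (fun _ => contDiff_const) (fun _ => contDiff_const) a b t x
  rw [e, iteratedDeriv_const_mul_field, iteratedDeriv_iteratedDeriv', iteratedDeriv_const]
  simp

lemma mixedD_fG_one (ν c : ℝ) (g : ℝ → ℝ) (a : ℕ) (b : ℕ × ℕ × ℕ) (t : ℝ) (x : R3) :
    mixedD a b (fun s y => fG ν c g s y (1 : Fin 3)) t x = 0 := by
  have hfun_eq : (fun (s : ℝ) (y : R3) => fG ν c g s y ((1 : Fin 3))) = fun _ _ => 0 := by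
    funext s y
    simp [fG]
  rw [hfun_eq]
  exact mixedD_zero a b t x

lemma mixedD_fG_two (ν c : ℝ) {g : ℝ → ℝ} (hg : ∀ n : ℕ, ContDiff ℝ n g) (a : ℕ)
    (b : ℕ × ℕ × ℕ) (t : ℝ) (x : R3) :
    mixedD a b (fun s y => fG ν c g s y (2 : Fin 3)) t x =
      if b.2.1 = 0 ∧ b.2.2 = 0 then
        iteratedDeriv (a + 2) thP t * iteratedDeriv b.1 g (x 0)
          - ν * (iteratedDeriv (a + 1) thP t * iteratedDeriv (b.1 + 2) g (x 0))
      else 0 := by
  have hfun_eq : (fun (s : ℝ) (y : R3) => fG ν c g s y ((2 : Fin 3))) =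
      fun s y => (iteratedDeriv 2 thP) s * g (y 0)
        + (fun s => -ν * deriv thP s) s * (iteratedDeriv 2 g) (y 0) := by
    funext s y
    simp [fG]
    ring
  have e : mixedD a b (fun s y => fG ν c g s y ((2 : Fin 3))) t x =
      if b.2.1 = 0 ∧ b.2.2 = 0 then
        iteratedDeriv a (iteratedDeriv 2 thP) t * iteratedDeriv b.1 g (x 0)
          + iteratedDeriv a (fun s => -ν * deriv thP s) t
            * iteratedDeriv b.1 (iteratedDeriv 2 g) (x 0)
      else 0 := by
    rw [hfun_eq]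
    exact mixedD_prod_add _ _ _ _
      (fun n => smooth_iteratedDeriv thP_smooth 2 n)
      (fun n => contDiff_const.mul (smooth_deriv thP_smooth n)) hg
      (fun n => smooth_iteratedDeriv hg 2 n) a b t x
  have e1 : iteratedDeriv a (fun s => -ν * deriv thP s) t
      = -ν * iteratedDeriv (a + 1) thP t := by
    rw [iteratedDeriv_const_mul_field, ← iteratedDeriv_one, iteratedDeriv_iteratedDeriv']
  rw [e, e1, iteratedDeriv_iteratedDeriv', iteratedDeriv_iteratedDeriv']
  split_ifs
  · ring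
  · rfl

/-- Closed formula for all mixed derivatives of the components of the force. -/
theorem mixedD_fG (ν c : ℝ) {g : ℝ → ℝ} (hg : ∀ n : ℕ, ContDiff ℝ n g) (a : ℕ)
    (b : ℕ × ℕ × ℕ) (i : Fin 3) (t : ℝ) (x : R3) :
    mixedD a b (fun s y => fG ν c g s y i) t x =
      if i = 0 then
        (if b.2.1 = 0 ∧ b.2.2 = 0 then
          (if b.1 = 0 then -c * iteratedDeriv (a + 2) hfun t else 0)
        else 0)
      else if i = 2 then
        (if b.2.1 = 0 ∧ b.2.2 = 0 then
          iteratedDeriv (a + 2) thP t * iteratedDeriv b.1 g (x 0)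
            - ν * (iteratedDeriv (a + 1) thP t * iteratedDeriv (b.1 + 2) g (x 0))
        else 0)
      else 0 := by
  by_cases h0 : i = 0
  · subst h0
    rw [if_pos rfl]
    exact mixedD_fG_zero ν c g a b t x
  · by_cases h2 : i = 2
    · subst h2
      rw [if_neg h0, if_pos rfl]
      exact mixedD_fG_two ν c hg a b t x
    · have h1 : i = 1 := by
        revert h0 h2
        revert i
        decide
      subst h1
      rw [if_neg h0, if_neg h2]
      exact mixedD_fG_one ν c g a b t x

/-- Index type of the force program: `((M, w), a, b, i, t, x)`. -/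
abbrev PT2 : Type := (MachineT × List ℕ) × ℕ × (ℕ × ℕ × ℕ) × Fin 3 × (ℕ × ℕ × ℕ)
    × ((ℕ × ℕ × ℕ) × (ℕ × ℕ × ℕ) × (ℕ × ℕ × ℕ))

/-- All mixed derivatives of the forces at rational points are computable reals, uniformly in
the machine, the input word, the orders, the component and the point. -/
theorem force_creal (ν : ℝ)
    (hν : ∃ φ : ℕ → ℕ × ℕ × ℕ, Computable φ ∧ ∀ k : ℕ, |ν - qv (φ k)| ≤ 1 / ((k : ℝ) + 1)) :
    CReal (fun p : PT2 =>
      mixedD p.2.1 p.2.2.1 (fun s y => fMw ν p.1.1 p.1.2 s y p.2.2.2.1) (qv p.2.2.2.2.1)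
        ![qv p.2.2.2.2.2.1, qv p.2.2.2.2.2.2.1, qv p.2.2.2.2.2.2.2]) := by
  -- projections
  have pM : Computable (fun p : PT2 => p.1.1) := Computable.fst.comp Computable.fst
  have pw : Computable (fun p : PT2 => p.1.2) := Computable.snd.comp Computable.fst
  have pa : Computable (fun p : PT2 => p.2.1) := Computable.fst.comp Computable.snd
  have pb : Computable (fun p : PT2 => p.2.2.1) :=
    Computable.fst.comp (Computable.snd.comp Computable.snd)
  have pi : Computable (fun p : PT2 => p.2.2.2.1) :=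
    Computable.fst.comp (Computable.snd.comp (Computable.snd.comp Computable.snd))
  have pt : Computable (fun p : PT2 => p.2.2.2.2.1) :=
    Computable.fst.comp
      (Computable.snd.comp (Computable.snd.comp (Computable.snd.comp Computable.snd)))
  have px : Computable (fun p : PT2 => p.2.2.2.2.2.1) :=
    Computable.fst.comp (Computable.snd.comp
      (Computable.snd.comp (Computable.snd.comp (Computable.snd.comp Computable.snd))))
  have pb1 : Computable (fun p : PT2 => p.2.2.1.1) := Computable.fst.comp pb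
  have pb2 : Computable (fun p : PT2 => p.2.2.1.2.1) :=
    Computable.fst.comp (Computable.snd.comp pb)
  have pb3 : Computable (fun p : PT2 => p.2.2.1.2.2) :=
    Computable.snd.comp (Computable.snd.comp pb)
  have padd : ∀ {f : PT2 → ℕ} (k : ℕ), Computable f → Computable (fun p : PT2 => f p + k) :=
    fun k hf => Primrec.nat_add.to_comp.comp hf (Computable.const k)
  -- the time profiles
  have hH0 : CReal (fun p : ℕ × (ℕ × ℕ × ℕ) => iteratedDeriv p.1 hfun (qv p.2)) := by
    have h := Vale.Agent.H45.Wfun_deriv_creal 1 1 (by norm_num)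
    simpa [hfun] using h
  have HH : ∀ k : ℕ, CReal (fun p : PT2 => iteratedDeriv (p.2.1 + k) hfun (qv p.2.2.2.2.1)) :=
    fun k => CReal.comp hH0 (g := fun p : PT2 => (p.2.1 + k, p.2.2.2.2.1))
      (Computable.pair (padd k pa) pt)
  have TH : ∀ k : ℕ, CReal (fun p : PT2 => iteratedDeriv (p.2.1 + k) thP (qv p.2.2.2.2.1)) :=
    fun k => CReal.comp thP_deriv_creal (g := fun p : PT2 => (p.2.1 + k, p.2.2.2.2.1))
      (Computable.pair (padd k pa) pt)
  have GG : ∀ k : ℕ,
      CReal (fun p : PT2 => iteratedDeriv (p.2.2.1.1 + k) (gM p.1.1) (qv p.2.2.2.2.2.1)) :=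
    fun k => CReal.comp gM_deriv_creal
      (g := fun p : PT2 => (p.1.1, p.2.2.1.1 + k, p.2.2.2.2.2.1))
      (Computable.pair pM (Computable.pair (padd k pb1) px))
  have CQ : CReal (fun p : PT2 => ((cq (encode p.1.2) : ℚ) : ℝ)) :=
    CReal.of_rat (Vale.Agent.H7.CRat.comp cq_crat (Computable.encode.comp pw))
  have NU : CReal (fun _ : PT2 => ν) := by
    obtain ⟨φ, hφ, hval⟩ := hν
    exact ⟨fun _ k => φ k, hφ.comp Computable.snd, fun _ k => hval k⟩
  have Z : CReal (fun _ : PT2 => (0 : ℝ)) := by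
    have h := CReal.of_rat (Vale.Agent.H7.CRat.const (α := PT2) 0)
    simpa using h
  have T0 : CReal (fun p : PT2 =>
      -((cq (encode p.1.2) : ℚ) : ℝ) * iteratedDeriv (p.2.1 + 2) hfun (qv p.2.2.2.2.1)) :=
    CReal.mul (CReal.neg CQ) (HH 2)
  have T2 : CReal (fun p : PT2 =>
      iteratedDeriv (p.2.1 + 2) thP (qv p.2.2.2.2.1)
          * iteratedDeriv (p.2.2.1.1 + 0) (gM p.1.1) (qv p.2.2.2.2.2.1)
        - ν * (iteratedDeriv (p.2.1 + 1) thP (qv p.2.2.2.2.1)
          * iteratedDeriv (p.2.2.1.1 + 2) (gM p.1.1) (qv p.2.2.2.2.2.1))) :=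
    CReal.sub (CReal.mul (TH 2) (GG 0)) (CReal.mul NU (CReal.mul (TH 1) (GG 2)))
  -- conditions
  have ci0 : Computable (fun p : PT2 => decide (p.2.2.2.1 = (0 : Fin 3))) :=
    Primrec.eq.decide.to_comp.comp pi (Computable.const 0)
  have ci2 : Computable (fun p : PT2 => decide (p.2.2.2.1 = (2 : Fin 3))) :=
    Primrec.eq.decide.to_comp.comp pi (Computable.const 2)
  have cb1 : Computable (fun p : PT2 => decide (p.2.2.1.1 = 0)) :=
    Primrec.eq.decide.to_comp.comp pb1 (Computable.const 0)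
  have cb2 : Computable (fun p : PT2 => decide (p.2.2.1.2.1 = 0)) :=
    Primrec.eq.decide.to_comp.comp pb2 (Computable.const 0)
  have cb3 : Computable (fun p : PT2 => decide (p.2.2.1.2.2 = 0)) :=
    Primrec.eq.decide.to_comp.comp pb3 (Computable.const 0)
  have key := CReal.ite ci0
    (CReal.ite cb2 (CReal.ite cb3 (CReal.ite cb1 T0 Z) Z) Z)
    (CReal.ite ci2 (CReal.ite cb2 (CReal.ite cb3 T2 Z) Z) Z)
  refine CReal.congr' key (fun p => ?_)
  unfold fMw
  rw [mixedD_fG ν _ (gM_smooth p.1.1)]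
  simp only [Matrix.cons_val_zero, add_zero]
  exact ite_shape _ _ _ _ _ _ _

end Vale.Agent.H30.V2
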