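import Vale.Agent.H30.NS2.Force
import Vale.Agent.H30.NS.Main

/-!
Final assembly of the second construction for P113: halting detection where the force is
machine-independent up to time `T₀` and input-independent and time-periodic from time `T₀` on.
-/

namespace Vale.Agent.H30.V2

open Encodable
open Vale.Agent.H77 (classical_unique)

theorem halting_iff (M : MachineT) (w : List ℕ) :
    (0 < gM M ((cq (encode w) : ℚ) : ℝ)) ↔
      ∃ n : ℕ, ((tmStep M)^[n] (M.1, [], w)).1 ∈ M.2.1 := by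
  rw [gM_cq]
  have he : 0 < Real.exp (-1) * Real.exp (-1) := by positivity
  rw [mul_pos_iff_of_pos_right he, etaM_pos_iff]

theorem main_theorem :
    ∃ (a : Fin 3 → UnitAddCircle) (O : Set (Fin 3 → UnitAddCircle)) (T₀ P : ℝ),
      IsOpen O ∧ 0 < T₀ ∧ 0 < P ∧
      ∀ ν : ℝ, 0 < ν →
        (∃ φ : ℕ → ℕ × ℕ × ℕ, Computable φ ∧ ∀ k : ℕ, |ν - qv (φ k)| ≤ 1 / ((k : ℝ) + 1)) →
        ∃ (comp : (ℕ × List ℕ × List ((ℕ × ℕ) × ℕ × ℕ × Option Bool)) → List ℕ →
            Nat.Partrec.Code)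
          (F : (ℕ × List ℕ × List ((ℕ × ℕ) × ℕ × ℕ × Option Bool)) → List ℕ → ℝ → R3 → R3),
          Computable₂ comp ∧
          (∀ M w w' t x, T₀ ≤ t → F M w (t + P) x = F M w t x ∧ F M w' t x = F M w t x) ∧
          (∀ M M' w t x, t ≤ T₀ → F M' w t x = F M w t x) ∧
          ∀ M w, (∀ n : ℕ, ContDiff ℝ n (fun z : ℝ × R3 => F M w z.1 z.2)) ∧
            (∀ t : ℝ, Per3 (F M w t)) ∧ IsProgramFor (comp M w) (F M w) ∧
            Detects ν (F M w) a O (∃ n : ℕ, ((tmStep M)^[n] (M.1, [], w)).1 ∈ M.2.1) := by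
  refine ⟨0, Oset, 1, 1, Oset_open, one_pos, one_pos, ?_⟩
  intro ν hν hcomp
  obtain ⟨A, hA, hAe⟩ := force_creal ν hcomp
  -- the uniform program
  let G : (MachineT × List ℕ) × (ℕ × (ℕ × ℕ × ℕ) × Fin 3 × (ℕ × ℕ × ℕ)
      × ((ℕ × ℕ × ℕ) × (ℕ × ℕ × ℕ) × (ℕ × ℕ × ℕ)) × ℕ) → ℕ × ℕ × ℕ :=
    fun p => A (p.1, p.2.1, p.2.2.1, p.2.2.2.1, p.2.2.2.2.1, p.2.2.2.2.2.1) p.2.2.2.2.2.2
  have hG : Computable G := by
    have h1 : Computable (fun p : (MachineT × List ℕ) × (ℕ × (ℕ × ℕ × ℕ) × Fin 3 × (ℕ × ℕ × ℕ)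
        × ((ℕ × ℕ × ℕ) × (ℕ × ℕ × ℕ) × (ℕ × ℕ × ℕ)) × ℕ) =>
        (p.1, p.2.1, p.2.2.1, p.2.2.2.1, p.2.2.2.2.1, p.2.2.2.2.2.1)) := by
      refine Computable.pair Computable.fst (Computable.pair ?_ (Computable.pair ?_
        (Computable.pair ?_ (Computable.pair ?_ ?_))))
      · exact Computable.fst.comp Computable.snd
      · exact Computable.fst.comp (Computable.snd.comp Computable.snd)
      · exact Computable.fst.comp (Computable.snd.comp (Computable.snd.comp Computable.snd))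
      · exact Computable.fst.comp (Computable.snd.comp (Computable.snd.comp
          (Computable.snd.comp Computable.snd)))
      · exact Computable.fst.comp (Computable.snd.comp (Computable.snd.comp
          (Computable.snd.comp (Computable.snd.comp Computable.snd))))
    have h2 : Computable (fun p : (MachineT × List ℕ) × (ℕ × (ℕ × ℕ × ℕ) × Fin 3 × (ℕ × ℕ × ℕ)
        × ((ℕ × ℕ × ℕ) × (ℕ × ℕ × ℕ) × (ℕ × ℕ × ℕ)) × ℕ) => p.2.2.2.2.2.2) :=
      Computable.snd.comp (Computable.snd.comp (Computable.snd.comp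
          (Computable.snd.comp (Computable.snd.comp Computable.snd))))
    exact hA.comp h1 h2
  obtain ⟨c₀, hc₀⟩ := code_of_computable G hG
  refine ⟨fun M w => Nat.Partrec.Code.curry c₀ (encode (M, w)),
    fun M w => fMw ν M w, ?_, ?_, ?_, ?_⟩
  · have : Computable (fun p : (ℕ × List ℕ × List ((ℕ × ℕ) × ℕ × ℕ × Option Bool)) × List ℕ =>
        Nat.Partrec.Code.curry c₀ (encode p)) :=
      (Nat.Partrec.Code.primrec₂_curry.to_comp).comp (Computable.const c₀) Computable.encode
    exact this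
  · intro M w w' t x ht
    exact ⟨fG_add_one ν _ ht x, fG_indep_c ν _ _ ht x⟩
  · intro M M' w t x ht
    exact fG_indep_g ν _ _ ht x
  · intro M w
    refine ⟨fG_smooth ν _ (gM_smooth M), fG_periodic ν _ (gM_periodic M), ?_, ?_⟩
    · intro a b i t x k _
      refine ⟨G ((M, w), a, b, i, t, x, k), ?_, ?_⟩
      · rw [Nat.Partrec.Code.eval_curry]
        have := hc₀ ((M, w), a, b, i, t, x, k)
        simpa using this
      · exact hAe ((M, w), a, b, i, t, x) k
    · have hg0 : 0 ≤ gM M ((cq (encode w) : ℚ) : ℝ) := by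
        rw [gM_cq]
        exact mul_nonneg (etaM_nonneg _ _) (by positivity)
      have hg1 : gM M ((cq (encode w) : ℚ) : ℝ) ≤ 1 := by
        rw [gM_cq]
        have h1 : etaM M (encode w) ≤ 1 := etaM_le_one _ _
        have h2 : Real.exp (-1) * Real.exp (-1) ≤ 1 := by
          have := exp_neg_one_lt_half
          have h0 : 0 < Real.exp (-1) := Real.exp_pos _
          nlinarith
        have h3 : 0 ≤ Real.exp (-1) * Real.exp (-1) := by positivity
        calc etaM M (encode w) * (Real.exp (-1) * Real.exp (-1))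
            ≤ 1 * 1 := mul_le_mul h1 h2 h3 zero_le_one
          _ = 1 := one_mul 1
      have hd := detects_generic ν ((cq (encode w) : ℚ) : ℝ) (gM_smooth M) (gM_periodic M)
        hg0 hg1 (fun T hT v q hvq =>
          classical_unique hν hT (uG_isClassical ν _ (gM_smooth M) (gM_periodic M) hT) hvq)
      have hiff := propext (halting_iff M w)
      rw [← hiff]
      exact hd

end Vale.Agent.H30.V2
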