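import Vale.Agent.H30.NS2.Bump

/-!
The lookup pulse train of the second construction: a smooth function that vanishes for `t ≤ 1`
and is `1`-periodic for `t ≥ 1`, with one bump on `[k + 1/3, k + 1/2]` for every integer `k ≥ 1`.
-/

namespace Vale.Agent.H30.V2

open Vale.Agent.H30 Vale.Agent.H7 Vale.Agent.H91

/-- Weights of the single bump of the pulse. -/
noncomputable def d0 (N : ℕ) : ℝ := if N = 0 then 1 else 0

theorem d0_abs_le (N : ℕ) : |d0 N| ≤ (1 / 2 : ℝ) ^ N := by
  unfold d0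
  split_ifs with h
  · subst h; simp
  · simp only [abs_zero]; positivity

/-- The periodic pulse train: one bump on `[k + 1/3, k + 1/2]` for every integer `k`. -/
noncomputable def thper : ℝ → ℝ := bumpPer (Wfun 0 1) d0

/-- The pulse train switched on at time `1`. -/
noncomputable def thP (t : ℝ) : ℝ := if t ≤ 1 then 0 else thper t

theorem thper_smooth (n : ℕ) : ContDiff ℝ n thper := bp_smooth d0 d0_abs_le n

theorem thper_iteratedDeriv (j : ℕ) (x : ℝ) :
    iteratedDeriv j thper x =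
      if 0 < Int.fract x ∧ Int.fract x ≤ 1 / 2 then
        d0 (⌊1 / Int.fract x⌋₊ - 2)
            * (((⌊1 / Int.fract x⌋₊ - 2 : ℕ) + 2 : ℝ) * ((⌊1 / Int.fract x⌋₊ - 2 : ℕ) + 3 : ℝ)) ^ j
          * iteratedDeriv j (Wfun 0 1)
            ((Int.fract x - 1 / ((⌊1 / Int.fract x⌋₊ - 2 : ℕ) + 3 : ℝ))
              * (((⌊1 / Int.fract x⌋₊ - 2 : ℕ) + 2 : ℝ) * ((⌊1 / Int.fract x⌋₊ - 2 : ℕ) + 3 : ℝ)))
      else 0 :=
  Vale.Agent.H10.bumpPer_iteratedDeriv (Wfun 0 1) d0 W_smooth W_zero_left W_zero_right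
    d0_abs_le j x

/-- Between the bumps all derivatives of the pulse train vanish. -/
theorem thper_iteratedDeriv_eq_zero (j : ℕ) {x : ℝ} (hx : Int.fract x < 1 / 3) :
    iteratedDeriv j thper x = 0 := by
  rw [thper_iteratedDeriv]
  split_ifs with h
  · have h3 : (3 : ℝ) < 1 / Int.fract x := by
      rw [lt_div_iff₀ h.1]
      linarith
    have h4 : 3 ≤ ⌊1 / Int.fract x⌋₊ := Nat.le_floor (by exact_mod_cast h3.le)
    have h5 : ⌊1 / Int.fract x⌋₊ - 2 ≠ 0 := by omega
    have hd : d0 (⌊1 / Int.fract x⌋₊ - 2) = 0 := by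
      unfold d0
      rw [if_neg h5]
    rw [hd, zero_mul, zero_mul]
  · rfl

theorem thper_iteratedDeriv_add_one (j : ℕ) (x : ℝ) :
    iteratedDeriv j thper (x + 1) = iteratedDeriv j thper x := by
  rw [thper_iteratedDeriv, thper_iteratedDeriv, Int.fract_add_one]

theorem thP_eq_zero {s : ℝ} (hs : s < 4 / 3) : thP s = 0 := by
  unfold thP
  split_ifs with h
  · rfl
  · have h1 : 1 < s := not_le.1 h
    have hf : Int.fract s = s - 1 := by
      rw [Int.fract_eq_iff]
      refine ⟨by linarith, by linarith, 1, by simp⟩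
    have := thper_iteratedDeriv_eq_zero 0 (x := s) (by rw [hf]; linarith)
    simpa using this

theorem thP_eventuallyEq_zero {t : ℝ} (ht : t < 4 / 3) : thP =ᶠ[nhds t] fun _ => 0 := by
  filter_upwards [Iio_mem_nhds ht] with s hs
  exact thP_eq_zero hs

theorem thP_eventuallyEq_thper {t : ℝ} (ht : 1 < t) : thP =ᶠ[nhds t] thper := by
  filter_upwards [Ioi_mem_nhds ht] with s hs
  unfold thP
  rw [if_neg (not_le.2 hs)]

theorem thP_smooth (n : ℕ) : ContDiff ℝ n thP := by
  rw [contDiff_iff_contDiffAt]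
  intro t
  rcases lt_or_ge t (4 / 3) with h | h
  · exact (contDiffAt_const (c := (0 : ℝ))).congr_of_eventuallyEq (thP_eventuallyEq_zero h)
  · exact ((thper_smooth n).contDiffAt).congr_of_eventuallyEq
      (thP_eventuallyEq_thper (by linarith))

theorem iteratedDeriv_thP_of_le_one (j : ℕ) {t : ℝ} (ht : t ≤ 1) : iteratedDeriv j thP t = 0 := by
  rw [(thP_eventuallyEq_zero (by linarith)).iteratedDeriv_eq j]
  simp

theorem iteratedDeriv_thP_of_one_lt (j : ℕ) {t : ℝ} (ht : 1 < t) :
    iteratedDeriv j thP t = iteratedDeriv j thper t :=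
  (thP_eventuallyEq_thper ht).iteratedDeriv_eq j

theorem thP_of_le_one {t : ℝ} (ht : t ≤ 1) : thP t = 0 := by
  simpa using iteratedDeriv_thP_of_le_one 0 ht

theorem deriv_thP_of_le_one {t : ℝ} (ht : t ≤ 1) : deriv thP t = 0 := by
  simpa [iteratedDeriv_one] using iteratedDeriv_thP_of_le_one 1 ht

/-- For `t ≥ 1` the pulse train and all its derivatives are `1`-periodic. -/
theorem iteratedDeriv_thP_add_one (j : ℕ) {t : ℝ} (ht : 1 ≤ t) :
    iteratedDeriv j thP (t + 1) = iteratedDeriv j thP t := by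
  rw [iteratedDeriv_thP_of_one_lt j (by linarith : 1 < t + 1), thper_iteratedDeriv_add_one]
  rcases eq_or_lt_of_le ht with h | h
  · rw [← h, iteratedDeriv_thP_of_le_one j le_rfl]
    exact thper_iteratedDeriv_eq_zero j (by norm_num)
  · rw [iteratedDeriv_thP_of_one_lt j h]

theorem thP_mid : thP (17 / 12) = Real.exp (-1) * Real.exp (-1) := by
  have h1 : thP (17 / 12) = thper (17 / 12) := by
    unfold thP
    rw [if_neg (by norm_num)]
  have h2 : (17 / 12 : ℝ) = ((cq 0 : ℚ) : ℝ) + ((1 : ℤ) : ℝ) := by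
    norm_num [cq]
  rw [h1, h2]
  unfold thper
  rw [bp_periodic, bp_cq]
  simp [d0]

/-- All derivatives of the pulse train at rational times are computable reals. -/
theorem thP_deriv_creal :
    CReal (fun p : ℕ × (ℕ × ℕ × ℕ) => iteratedDeriv p.1 thP (qv p.2)) := by
  have hd : CReal (fun p : Unit × ℕ => d0 p.2) := by
    have hc : Computable (fun p : Unit × ℕ => decide (p.2 = 0)) :=
      Primrec.eq.decide.to_comp.comp Computable.snd (Computable.const 0)
    have h1 : CReal (fun _ : Unit × ℕ => (1 : ℝ)) := by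
      simpa using CReal.of_rat (α := Unit × ℕ) (CRat.const 1)
    have h0 : CReal (fun _ : Unit × ℕ => (0 : ℝ)) := by
      simpa using CReal.of_rat (α := Unit × ℕ) (CRat.const 0)
    have h := CReal.ite hc h1 h0
    refine (congrArg CReal (funext fun p => ?_)).mp h
    simp [d0]
  have hper := bp_deriv_creal (α := Unit) (fun _ => d0) (fun _ N => d0_abs_le N) hd
  have hper' : CReal (fun p : ℕ × (ℕ × ℕ × ℕ) => iteratedDeriv p.1 thper (qv p.2)) :=
    CReal.comp hper (g := fun p : ℕ × (ℕ × ℕ × ℕ) => ((), p.1, p.2))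
      (Computable.pair (Computable.const ()) Computable.id)
  have hc : Computable (fun p : ℕ × (ℕ × ℕ × ℕ) => decide (ratOf p.2 ≤ 1)) :=
    CRat.decide_le (CRat.comp CRat.ratOf Computable.snd) (CRat.const 1)
  have h0 : CReal (fun _ : ℕ × (ℕ × ℕ × ℕ) => (0 : ℝ)) := by
    simpa using CReal.of_rat (α := ℕ × (ℕ × ℕ × ℕ)) (CRat.const 0)
  have h := CReal.ite hc h0 hper'
  refine (congrArg CReal (funext fun p => ?_)).mp h
  have hq : (ratOf p.2 ≤ 1) ↔ qv p.2 ≤ 1 := by
    rw [qv_eq_ratOf]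
    constructor
    · intro h; exact_mod_cast h
    · intro h; exact_mod_cast h
  by_cases hle : ratOf p.2 ≤ 1
  · rw [if_pos (by simpa using hle), iteratedDeriv_thP_of_le_one p.1 (hq.1 hle)]
  · rw [if_neg (by simpa using hle),
      iteratedDeriv_thP_of_one_lt p.1 (not_le.1 (fun h' => hle (hq.2 h')))]

end Vale.Agent.H30.V2
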