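import Vale.Agent.H30.NS2.Pulse

/-!
The explicit forced flow of the second construction: velocity `uG`, force `fG`, its
classical-solution property and its particle trajectories, for an arbitrary smooth `1`-periodic
lookup function `g` and amplitude `c`. The transport acts for `t ≤ 1`, the lookup pulses for
`t ≥ 1`, periodically in time.
-/

namespace Vale.Agent.H30.V2

open scoped ContDiff

theorem deriv_hfun_mul_deriv_thP (t : ℝ) : deriv hfun t * deriv thP t = 0 := by
  rcases le_total t 1 with h | h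
  · rw [deriv_thP_of_le_one h, mul_zero]
  · rw [deriv_hfun_of_one_le h, zero_mul]

/-- Velocity field of the explicit flow. -/
noncomputable def uG (c : ℝ) (g : ℝ → ℝ) (t : ℝ) (x : R3) : R3 :=
  ![-c * deriv hfun t, 0, deriv thP t * g (x 0)]

/-- Force of the explicit flow. -/
noncomputable def fG (ν c : ℝ) (g : ℝ → ℝ) (t : ℝ) (x : R3) : R3 :=
  ![-c * iteratedDeriv 2 hfun t, 0,
    iteratedDeriv 2 thP t * g (x 0) - ν * (deriv thP t * iteratedDeriv 2 g (x 0))]

/-- Time derivative of the velocity field. -/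
noncomputable def utG (c : ℝ) (g : ℝ → ℝ) (t : ℝ) (x : R3) : R3 :=
  ![-c * iteratedDeriv 2 hfun t, 0, iteratedDeriv 2 thP t * g (x 0)]

section
variable (ν c : ℝ) {g : ℝ → ℝ} (hg : ∀ n : ℕ, ContDiff ℝ n g)
include hg

theorem uG_smooth (n : ℕ) : ContDiff ℝ n (fun z : ℝ × R3 => uG c g z.1 z.2) := by
  rw [contDiff_pi]
  intro i
  have h0 : ContDiff ℝ n (fun z : ℝ × R3 => -c * deriv hfun z.1) :=
    contDiff_const.mul ((smooth_deriv hfun_smooth n).comp contDiff_fst)
  have h2 : ContDiff ℝ n (fun z : ℝ × R3 => deriv thP z.1 * g (z.2 0)) :=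
    ((smooth_deriv thP_smooth n).comp contDiff_fst).mul
      ((hg n).comp ((contDiff_apply ℝ ℝ (0 : Fin 3)).comp contDiff_snd))
  fin_cases i
  · exact h0
  · exact contDiff_const
  · exact h2

theorem utG_continuous : Continuous (fun z : ℝ × R3 => utG c g z.1 z.2) := by
  rw [continuous_pi_iff]
  intro i
  have h0 : Continuous (fun z : ℝ × R3 => -c * iteratedDeriv 2 hfun z.1) :=
    continuous_const.mul ((smooth_iteratedDeriv hfun_smooth 2 0).continuous.comp continuous_fst)
  have h2 : Continuous (fun z : ℝ × R3 => iteratedDeriv 2 thP z.1 * g (z.2 0)) :=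
    ((smooth_iteratedDeriv thP_smooth 2 0).continuous.comp continuous_fst).mul
      ((hg 0).continuous.comp ((continuous_apply (0 : Fin 3)).comp continuous_snd))
  fin_cases i
  · exact h0
  · exact continuous_const
  · exact h2

omit hg in
theorem uG_hasDerivAt_t (x : R3) (t : ℝ) :
    HasDerivAt (fun s => uG c g s x) (utG c g t x) t := by
  have d1 : HasDerivAt (deriv hfun) (iteratedDeriv 2 hfun t) t := by
    rw [iteratedDeriv_two]
    exact ((smooth_deriv hfun_smooth 1).differentiable (by norm_num) t).hasDerivAt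
  have d2 : HasDerivAt (deriv thP) (iteratedDeriv 2 thP t) t := by
    rw [iteratedDeriv_two]
    exact ((smooth_deriv thP_smooth 1).differentiable (by norm_num) t).hasDerivAt
  rw [hasDerivAt_pi]
  intro i
  fin_cases i
  · exact d1.const_mul (-c)
  · exact hasDerivAt_const t (0 : ℝ)
  · exact d2.mul_const (g (x 0))

theorem pd_uG (t : ℝ) (i j : Fin 3) :
    pd j (fun y => uG c g t y i)
      = fun x => if i = 2 ∧ j = 0 then deriv thP t * deriv g (x 0) else 0 := by
  have hd : Differentiable ℝ (fun s => deriv thP t * g s) :=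
    ((hg 1).differentiable (by norm_num)).const_mul _
  have h2 := pd_comp0 hd j
  have hdd : ∀ s, deriv (fun s => deriv thP t * g s) s = deriv thP t * deriv g s := by
    intro s
    exact (((hg 1).differentiable (by norm_num) s).hasDerivAt.const_mul _).deriv
  simp only [hdd] at h2
  fin_cases i
  · simpa [uG] using pd_const j (-c * deriv hfun t)
  · simpa [uG] using pd_const j 0
  · simpa [uG] using h2

theorem pd_pd_uG (t : ℝ) (i j k : Fin 3) :
    pd k (pd j (fun y => uG c g t y i))
      = fun x => if i = 2 ∧ j = 0 ∧ k = 0 then deriv thP t * iteratedDeriv 2 g (x 0) else 0 := by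
  rw [pd_uG c hg]
  by_cases h : i = 2 ∧ j = 0
  · simp only [h, and_self, if_true, true_and]
    have hd : Differentiable ℝ (fun s => deriv thP t * deriv g s) :=
      ((smooth_deriv hg 1).differentiable (by norm_num)).const_mul _
    have h2 := pd_comp0 hd k
    have hdd : ∀ s, deriv (fun s => deriv thP t * deriv g s) s
        = deriv thP t * iteratedDeriv 2 g s := by
      intro s
      rw [iteratedDeriv_two]
      exact (((smooth_deriv hg 1).differentiable (by norm_num) s).hasDerivAt.const_mul _).deriv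
    simpa only [hdd] using h2
  · have h' : ¬ (i = 2 ∧ j = 0 ∧ k = 0) := fun hh => h ⟨hh.1, hh.2.1⟩
    simp only [h, h', if_false]
    exact pd_const k 0

end

section
variable (ν c : ℝ) {g : ℝ → ℝ} (hg : ∀ n : ℕ, ContDiff ℝ n g)
  (hper : ∀ (x : ℝ) (k : ℤ), g (x + k) = g x)
include hg hper

theorem uG_isClassical {T : ℝ} (hT : 0 < T) :
    IsClassical ν (fG ν c g) T (uG c g) (fun _ _ => 0) := by
  have hdw : ∀ t ∈ Set.Icc (0 : ℝ) T, ∀ x : R3,
      derivWithin (fun s => uG c g s x) (Set.Icc (0 : ℝ) T) t = utG c g t x := fun t ht x =>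
    (uG_hasDerivAt_t c x t).hasDerivWithinAt.derivWithin (uniqueDiffOn_Icc hT t ht)
  have hdwi : ∀ t ∈ Set.Icc (0 : ℝ) T, ∀ (x : R3) (i : Fin 3),
      derivWithin (fun s => uG c g s x i) (Set.Icc (0 : ℝ) T) t = utG c g t x i := fun t ht x i =>
    ((hasDerivAt_pi.1 (uG_hasDerivAt_t c x t)) i).hasDerivWithinAt.derivWithin
      (uniqueDiffOn_Icc hT t ht)
  refine ⟨?_, ?_, ?_, ?_, ?_, ?_, ?_, ?_, ?_, ?_, ?_, ?_⟩
  · intro t _
    refine ⟨?_, fun x k => rfl⟩
    intro x k
    have : (x + fun i => ((k i : ℤ) : ℝ)) 0 = x 0 + ((k 0 : ℤ) : ℝ) := rfl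
    simp only [uG, this, hper]
  · exact (uG_smooth c hg 0).continuous.continuousOn
  · intro t _ x
    exact (uG_hasDerivAt_t c x t).differentiableAt.differentiableWithinAt
  · refine (utG_continuous c hg).continuousOn.congr ?_
    rintro ⟨t, x⟩ ⟨ht, _⟩
    exact hdw t ht x
  · intro t _
    have h := uG_smooth c hg 2
    have h2 : ContDiff ℝ 2 (fun x : R3 => ((t, x) : ℝ × R3)) :=
      contDiff_const.prodMk contDiff_id
    exact_mod_cast h.comp h2
  · intro i j
    refine ⟨?_, fun k => ?_⟩
    · simp only [pd_uG c hg]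
      split_ifs
      · exact (((smooth_deriv thP_smooth 0).continuous.comp continuous_fst).mul
          ((smooth_deriv hg 0).continuous.comp
            ((continuous_apply (0 : Fin 3)).comp continuous_snd))).continuousOn
      · exact continuous_const.continuousOn
    · simp only [pd_pd_uG c hg]
      split_ifs
      · exact (((smooth_deriv thP_smooth 0).continuous.comp continuous_fst).mul
          ((smooth_iteratedDeriv hg 2 0).continuous.comp
            ((continuous_apply (0 : Fin 3)).comp continuous_snd))).continuousOn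
      · exact continuous_const.continuousOn
  · exact continuous_const.continuousOn
  · intro t _
    exact differentiable_const _
  · intro i
    simp only [pd_const]
    exact continuous_const.continuousOn
  · intro t _
    simp
  · intro x
    funext i
    fin_cases i <;> simp [uG, deriv_hfun_zero, deriv_thP_of_le_one]
  · intro t ht x
    refine ⟨?_, fun i => ?_⟩
    · simp only [pd_uG c hg, Fin.sum_univ_three]
      simp
    · rw [hdwi t ht x i]
      simp only [pd_pd_uG c hg]
      simp only [pd_uG c hg, pd_const, Fin.sum_univ_three]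
      have hz := deriv_hfun_mul_deriv_thP t
      fin_cases i
      · simp [utG, fG]
      · simp [utG, fG]
      · simp [utG, fG, uG]
        rcases mul_eq_zero.1 hz with h | h
        · exact Or.inl (Or.inr h)
        · exact Or.inr (Or.inl h)

end

section
variable (ν c : ℝ) {g : ℝ → ℝ} (hg : ∀ n : ℕ, ContDiff ℝ n g)
  (hper : ∀ (x : ℝ) (k : ℤ), g (x + k) = g x)
include hg

theorem fG_smooth (n : ℕ) : ContDiff ℝ n (fun z : ℝ × R3 => fG ν c g z.1 z.2) := by
  rw [contDiff_pi]
  intro i
  have hx0 : ContDiff ℝ n (fun z : ℝ × R3 => z.2 0) :=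
    (contDiff_apply ℝ ℝ (0 : Fin 3)).comp contDiff_snd
  have h0 : ContDiff ℝ n (fun z : ℝ × R3 => -c * iteratedDeriv 2 hfun z.1) :=
    contDiff_const.mul ((smooth_iteratedDeriv hfun_smooth 2 n).comp contDiff_fst)
  have h2 : ContDiff ℝ n (fun z : ℝ × R3 => iteratedDeriv 2 thP z.1 * g (z.2 0)
      - ν * (deriv thP z.1 * iteratedDeriv 2 g (z.2 0))) :=
    (((smooth_iteratedDeriv thP_smooth 2 n).comp contDiff_fst).mul ((hg n).comp hx0)).sub
      (contDiff_const.mul (((smooth_deriv thP_smooth n).comp contDiff_fst).mul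
        ((smooth_iteratedDeriv hg 2 n).comp hx0)))
  fin_cases i
  · exact h0
  · exact contDiff_const
  · exact h2

omit hg in
/-- For `t ≥ 1` the force is `1`-periodic in time. -/
theorem fG_add_one {t : ℝ} (ht : 1 ≤ t) (x : R3) : fG ν c g (t + 1) x = fG ν c g t x := by
  have h1 : iteratedDeriv 2 hfun t = 0 := iteratedDeriv_hfun_of_one_le 2 ht
  have h1' : iteratedDeriv 2 hfun (t + 1) = 0 := iteratedDeriv_hfun_of_one_le 2 (by linarith)
  have h2 : iteratedDeriv 2 thP (t + 1) = iteratedDeriv 2 thP t := iteratedDeriv_thP_add_one 2 ht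
  have h3 : deriv thP (t + 1) = deriv thP t := by
    simpa [iteratedDeriv_one] using iteratedDeriv_thP_add_one 1 ht
  funext i
  fin_cases i <;> simp [fG, h1, h1', h2, h3]

omit hg in
/-- For `t ≥ 1` the force does not depend on the amplitude `c`. -/
theorem fG_indep_c (c' : ℝ) {t : ℝ} (ht : 1 ≤ t) (x : R3) :
    fG ν c g t x = fG ν c' g t x := by
  have h1 : iteratedDeriv 2 hfun t = 0 := iteratedDeriv_hfun_of_one_le 2 ht
  funext i
  fin_cases i <;> simp [fG, h1]

omit hg in
/-- For `t ≤ 1` the force does not depend on the lookup function `g`. -/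
theorem fG_indep_g (g' : ℝ → ℝ) {t : ℝ} (ht : t ≤ 1) (x : R3) :
    fG ν c g t x = fG ν c g' t x := by
  have h2 : iteratedDeriv 2 thP t = 0 := iteratedDeriv_thP_of_le_one 2 ht
  have h3 : deriv thP t = 0 := deriv_thP_of_le_one ht
  funext i
  fin_cases i <;> simp [fG, h2, h3]

omit hg in
include hper in
theorem fG_periodic (t : ℝ) : Per3 (fG ν c g t) := by
  intro x k
  have e : (x + fun i => ((k i : ℤ) : ℝ)) 0 = x 0 + ((k 0 : ℤ) : ℝ) := rfl
  have h2 : ∀ (y : ℝ) (m : ℤ), iteratedDeriv 2 g (y + m) = iteratedDeriv 2 g y := by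
    intro y m
    have := congrFun (iteratedDeriv_comp_add_const 2 g (m : ℝ)) y
    rw [← this]
    congr 1
    funext z
    exact hper z m
  simp only [fG, e, hper, h2]

omit hg in
include hper in
theorem key_th (t : ℝ) (m : ℤ) :
    deriv thP t * g ((m : ℝ) + c * (1 - hfun t)) = deriv thP t * g c := by
  rcases le_total t 1 with h | h
  · rw [deriv_thP_of_le_one h, zero_mul, zero_mul]
  · rw [hfun_of_one_le h, sub_zero, mul_one, add_comm, hper]

end

/-- The explicit trajectory from the origin. -/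
noncomputable def XG (c : ℝ) (g : ℝ → ℝ) (t : ℝ) : R3 := ![c * (1 - hfun t), 0, g c * thP t]

theorem XG_zero (c : ℝ) (g : ℝ → ℝ) : XG c g 0 = 0 := by
  funext i
  fin_cases i <;> simp [XG, hfun_zero, thP_of_le_one]

theorem XG_hasDerivAt (c : ℝ) {g : ℝ → ℝ} (hper : ∀ (x : ℝ) (k : ℤ), g (x + k) = g x) (t : ℝ) :
    HasDerivAt (XG c g) (uG c g t (XG c g t)) t := by
  have d1 : HasDerivAt hfun (deriv hfun t) t :=
    ((hfun_smooth 1).differentiable (by norm_num) t).hasDerivAt
  have d2 : HasDerivAt thP (deriv thP t) t :=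
    ((thP_smooth 1).differentiable (by norm_num) t).hasDerivAt
  have k := key_th c hper t 0
  rw [hasDerivAt_pi]
  intro i
  fin_cases i
  · have := ((hasDerivAt_const t (1 : ℝ)).sub d1).const_mul c
    simpa [XG, uG] using this
  · exact hasDerivAt_const t (0 : ℝ)
  · have := d2.const_mul (g c)
    have e : uG c g t (XG c g t) 2 = g c * deriv thP t := by
      simp only [Int.cast_zero, zero_add] at k
      simp [uG, XG, k, mul_comm]
    show HasDerivAt (fun s => XG c g s 2) (uG c g t (XG c g t) 2) t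
    rw [e]
    simpa [XG] using this

theorem traj_char (c : ℝ) {g : ℝ → ℝ} (hper : ∀ (x : ℝ) (k : ℤ), g (x + k) = g x)
    {X : ℝ → R3} (h0 : ∃ m : ℤ, X 0 0 = m)
    (hX : ∀ t : ℝ, 0 ≤ t → HasDerivWithinAt X (uG c g t (X t)) (Set.Ici 0) t) :
    ∀ t : ℝ, 0 ≤ t → X t 2 = X 0 2 + g c * thP t := by
  obtain ⟨m, hm⟩ := h0
  have d1 : ∀ t, HasDerivAt hfun (deriv hfun t) t := fun t =>
    ((hfun_smooth 1).differentiable (by norm_num) t).hasDerivAt
  have d2 : ∀ t, HasDerivAt thP (deriv thP t) t := fun t =>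
    ((thP_smooth 1).differentiable (by norm_num) t).hasDerivAt
  have hA : ∀ t : ℝ, 0 ≤ t → X t 0 = (m : ℝ) + c * (1 - hfun t) := by
    intro t ht
    have hψ : ∀ s : ℝ, 0 ≤ s →
        HasDerivWithinAt (fun s => X s 0 + c * hfun s) 0 (Set.Ici 0) s := by
      intro s hs
      have a1 := (hasDerivWithinAt_pi.1 (hX s hs)) 0
      have a2 := ((d1 s).const_mul c).hasDerivWithinAt (s := Set.Ici (0 : ℝ))
      have a3 := a1.add a2
      have e : uG c g s (X s) 0 + c * deriv hfun s = 0 := by simp [uG]
      rw [e] at a3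
      exact a3
    have := const_of_deriv_zero_Ici hψ t ht
    simp only [hfun_zero, hm] at this
    linarith
  intro t ht
  have hψ : ∀ s : ℝ, 0 ≤ s →
      HasDerivWithinAt (fun s => X s 2 - g c * thP s) 0 (Set.Ici 0) s := by
    intro s hs
    have a1 := (hasDerivWithinAt_pi.1 (hX s hs)) 2
    have a2 := ((d2 s).const_mul (g c)).hasDerivWithinAt (s := Set.Ici (0 : ℝ))
    have a3 := a1.sub a2
    have e : uG c g s (X s) 2 - g c * deriv thP s = 0 := by
      have k := key_th c hper s m
      simp only [uG, hA s hs]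
      simp only [Matrix.cons_val_two, Matrix.tail_cons, Matrix.head_cons]
      linarith
    rw [e] at a3
    exact a3
  have := const_of_deriv_zero_Ici hψ t ht
  simp only [thP_of_le_one zero_le_one, mul_zero, sub_zero] at this
  linarith

theorem detects_generic (ν c : ℝ) {g : ℝ → ℝ} (hg : ∀ n : ℕ, ContDiff ℝ n g)
    (hper : ∀ (x : ℝ) (k : ℤ), g (x + k) = g x) (hg0 : 0 ≤ g c) (hg1 : g c ≤ 1)
    (huniq : ∀ T : ℝ, 0 < T → ∀ v q, IsClassical ν (fG ν c g) T v q →
      ∀ t ∈ Set.Icc (0 : ℝ) T, ∀ x : R3, v t x = uG c g t x ∧ q t x = 0) :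
    Detects ν (fG ν c g) 0 Oset (0 < g c) := by
  refine ⟨uG c g, fun _ _ => 0, uG_smooth c hg, fun n => contDiff_const, ?_, ?_, ?_⟩
  · intro T hT
    exact ⟨uG_isClassical ν c hg hper hT, huniq T hT⟩
  · refine ⟨XG c g, ?_, fun t _ => (XG_hasDerivAt c hper t).hasDerivWithinAt⟩
    funext i
    simp [XG_zero]
  · intro X hX0 hX
    have hint : ∀ i, ∃ m : ℤ, X 0 i = m := by
      intro i
      have h := congrFun hX0 i
      obtain ⟨n, hn⟩ := (AddCircle.coe_eq_zero_iff (1 : ℝ)).1 h
      exact ⟨n, by simpa using hn.symm⟩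
    have hch := traj_char c hper (hint 0) hX
    obtain ⟨m, hm⟩ := hint 2
    constructor
    · rintro ⟨t, ht, r, hr0, hr1, hr⟩
      by_contra hneg
      have hgc : g c = 0 := le_antisymm (not_lt.1 hneg) hg0
      have hXt : X t 2 = m := by rw [hch t ht, hgc, hm]; ring
      have hr' : ((X t 2 : ℝ) : UnitAddCircle) = (r : UnitAddCircle) := hr
      rw [hXt, int_coe_circle] at hr'
      obtain ⟨n, hn⟩ := (AddCircle.coe_eq_zero_iff (1 : ℝ)).1 hr'.symm
      have hn' : (n : ℝ) = r := by simpa using hn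
      have h1 : (0 : ℝ) < n := by rw [hn']; exact hr0
      have h2 : (1 : ℝ) ≤ n := by exact_mod_cast Int.cast_pos.1 h1
      linarith
    · intro hpos
      have hth : thP (17 / 12) = Real.exp (-1) * Real.exp (-1) := thP_mid
      have he := exp_neg_one_lt_half
      have he0 : 0 < Real.exp (-1) := Real.exp_pos _
      refine ⟨17 / 12, by norm_num, g c * thP (17 / 12), ?_, ?_, ?_⟩
      · rw [hth]; positivity
      · rw [hth]; nlinarith [mul_pos he0 he0]
      · show ((X (17 / 12) 2 : ℝ) : UnitAddCircle) = ((g c * thP (17 / 12) : ℝ) : UnitAddCircle)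
        rw [hch (17 / 12) (by norm_num), hm, AddCircle.coe_add, int_coe_circle, zero_add]

end Vale.Agent.H30.V2
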